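import Vale.Agent.P039.Sk.Defs
import Vale.Agent.P039.Defs
import Mathlib.Combinatorics.SimpleGraph.Connectivity.Connected

/-! Edge cuts of the web of a 3-connected cubic bipartite graph. -/

namespace Vale.Agent.P039.Bn.H476

open Vale.Agent.P039 Vale.Agent.P039.Sk

theorem of_preconnected {V : Type*} {H : SimpleGraph V} (hH : H.Preconnected) (P : V → Prop)
    (h : ∀ u v, H.Adj u v → P u → P v) (x y : V) (hx : P x) : P y := by
  have := hH x y
  rw [SimpleGraph.reachable_iff_reflTransGen] at this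
  induction this with
  | refl => exact hx
  | tail _ h2 ih => exact h _ _ h2 ih

theorem threeConnected_iso {V V' : Type*} {G : SimpleGraph V} {G' : SimpleGraph V'} (φ : G' ≃g G)
    (h : ThreeConnected G) : ThreeConnected G' := by
  classical
  refine ⟨?_, fun s hs => ?_⟩
  · rw [Nat.card_congr φ.toEquiv]; exact h.1
  · have h1 := h.2 (s.map φ.toEquiv.toEmbedding) (by rw [Finset.card_map]; exact hs)
    let f : G.induce {v | v ∉ s.map φ.toEquiv.toEmbedding} →g G'.induce {v | v ∉ s} :=
      { toFun := fun v => ⟨φ.symm v.1, fun hv => v.2 (by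
          rw [Finset.mem_map]
          exact ⟨_, hv, φ.apply_symm_apply _⟩)⟩
        map_rel' := by
          intro a b hab
          exact φ.symm.map_rel_iff.2 hab }
    have hf : Function.Surjective f := by
      intro v
      refine ⟨⟨φ v.1, fun hv => ?_⟩, Subtype.ext (φ.symm_apply_apply _)⟩
      rw [Finset.mem_map] at hv
      obtain ⟨a, ha, hav⟩ := hv
      have : a = v.1 := φ.toEquiv.injective hav
      exact v.2 (this ▸ ha)
    exact h1.map f hf

theorem cubic_iso {V V' : Type*} {G : SimpleGraph V} {G' : SimpleGraph V'} (φ : G' ≃g G)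
    (h : ∀ v, (G.neighborSet v).ncard = 3) (v : V') : (G'.neighborSet v).ncard = 3 := by
  rw [← h (φ v), ← Nat.card_coe_set_eq, ← Nat.card_coe_set_eq]
  exact Nat.card_congr (φ.mapNeighborSet v)

variable {B W : Type}

theorem graph_adj (X : Web B W) (b : B) (i : Fin 3) :
    X.graph.Adj (Sum.inl b) (Sum.inr (X.e i b)) := by
  refine ⟨by simp, Or.inl ⟨i, b, rfl, rfl⟩⟩

theorem adj_cases {X : Web B W} {x y : B ⊕ W} (h : X.graph.Adj x y) :
    (∃ i b, x = Sum.inl b ∧ y = Sum.inr (X.e i b)) ∨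
      ∃ i b, y = Sum.inl b ∧ x = Sum.inr (X.e i b) := h.2

/-- the three white neighbours of a black vertex are different -/
theorem web_simple (X : Web B W) (h : ∀ v, (X.graph.neighborSet v).ncard = 3) (b : B)
    {i j : Fin 3} (hij : i ≠ j) : X.e i b ≠ X.e j b := by
  have h1 : X.graph.neighborSet (Sum.inl b) =
      (fun i : Fin 3 => (Sum.inr (X.e i b) : B ⊕ W)) '' Set.univ := by
    ext y
    constructor
    · intro hy
      rcases adj_cases hy with ⟨i, b', h1, rfl⟩ | ⟨i, b', _, h2⟩
      · cases h1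
        exact ⟨i, trivial, rfl⟩
      · cases h2
    · rintro ⟨i, _, rfl⟩
      exact graph_adj X b i
  have h2 := h (Sum.inl b)
  rw [h1] at h2
  have h3 : Set.InjOn (fun i : Fin 3 => (Sum.inr (X.e i b) : B ⊕ W)) Set.univ := by
    refine Set.injOn_of_ncard_image_eq ?_ Set.finite_univ
    rw [h2, Set.ncard_univ]
    simp
  intro he
  exact hij (h3 trivial trivial (by simp [he]))

theorem card_ge [Fintype B] (X : Web B W)
    (hs : ∀ b (i j : Fin 3), i ≠ j → X.e i b ≠ X.e j b) [Nonempty B] : 3 ≤ Fintype.card B := by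
  classical
  obtain ⟨b⟩ := ‹Nonempty B›
  have : Function.Injective fun i : Fin 3 => (X.e 0).symm (X.e i b) := by
    intro i j hij
    by_contra hne
    exact hs b i j hne ((X.e 0).symm.injective hij)
  simpa using Fintype.card_le_of_injective _ this

/-- the edges with exactly one end in `S` -/
def cutSet (X : Web B W) (S : Set (B ⊕ W)) : Set (Fin 3 × B) :=
  {p | ¬ (Sum.inl p.2 ∈ S ↔ Sum.inr (X.e p.1 p.2) ∈ S)}

theorem cutSet_compl (X : Web B W) (S : Set (B ⊕ W)) : cutSet X Sᶜ = cutSet X S := by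
  ext p
  simp only [cutSet, Set.mem_ofPred_eq, Set.mem_compl_iff]
  tauto

theorem subset_of_cut [Fintype B] (X : Web B W) (h3 : ThreeConnected X.graph) (S : Set (B ⊕ W))
    (hS' : Sᶜ.Nonempty) (hc : (cutSet X S).ncard ≤ 2) : S.encard ≤ 2 := by
  classical
  let en : Fin 3 × B → B ⊕ W := fun p =>
    if Sum.inl p.2 ∈ S then Sum.inl p.2 else Sum.inr (X.e p.1 p.2)
  have hen : ∀ p ∈ cutSet X S, en p ∈ S := by
    intro p hp
    by_cases h : Sum.inl p.2 ∈ S
    · simp only [en, if_pos h]; exact h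
    · simp only [en, if_neg h]
      by_contra h'
      exact hp (by simp only [h, h'])
  have hfin : (cutSet X S).Finite := Set.toFinite _
  let T : Finset (B ⊕ W) := hfin.toFinset.image en
  have hT : T.card ≤ 2 := by
    refine Finset.card_image_le.trans ?_
    rwa [← Set.ncard_eq_toFinset_card _ hfin]
  have hTS : ∀ x ∈ T, x ∈ S := by
    intro x hx
    obtain ⟨p, hp, rfl⟩ := Finset.mem_image.1 hx
    exact hen p (hfin.mem_toFinset.1 hp)
  have hST : ∀ x ∈ S, x ∈ T := by
    intro x hx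
    by_contra hxT
    obtain ⟨y, hy⟩ := hS'
    have hyT : y ∉ T := fun h => hy (hTS y h)
    have h1 := (h3.2 T hT).preconnected
    refine hy (of_preconnected h1 (fun v => v.1 ∈ S) ?_ ⟨x, hxT⟩ ⟨y, hyT⟩ hx)
    rintro ⟨u, hu⟩ ⟨v, hv⟩ huv huS
    have huv' : X.graph.Adj u v := huv
    by_contra hvS
    rcases adj_cases huv' with ⟨i, b, rfl, rfl⟩ | ⟨i, b, rfl, rfl⟩
    · refine hu (Finset.mem_image.2 ⟨(i, b), hfin.mem_toFinset.2 ?_, ?_⟩)
      · intro h; exact hvS (h.1 huS)
      · simp only [en]; rw [if_pos huS]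
    · refine hu (Finset.mem_image.2 ⟨(i, b), hfin.mem_toFinset.2 ?_, ?_⟩)
      · intro h; exact hvS (h.2 huS)
      · simp only [en]; rw [if_neg hvS]
  have h4 : S ⊆ (T : Set (B ⊕ W)) := fun x hx => hST x hx
  refine (Set.encard_le_encard h4).trans ?_
  rw [Set.encard_coe_eq_coe_finsetCard]
  exact_mod_cast hT

/-- **Block 8b.** -/
theorem three_le_cut [Fintype B] [Fintype W] (X : Web B W) (h3 : ThreeConnected X.graph)
    (hs : ∀ b (i j : Fin 3), i ≠ j → X.e i b ≠ X.e j b) (S : Set (B ⊕ W))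
    (hS : S.Nonempty) (hS' : Sᶜ.Nonempty) : 3 ≤ (cutSet X S).ncard := by
  classical
  by_contra hcon
  have hc : (cutSet X S).ncard ≤ 2 := by omega
  have h1 := subset_of_cut X h3 S hS' hc
  have h2 := subset_of_cut X h3 Sᶜ (by rwa [compl_compl]) (by rwa [cutSet_compl])
  have h5 : (Set.univ : Set (B ⊕ W)).encard ≤ 4 := by
    rw [← Set.union_compl_self S]
    refine (Set.encard_union_le _ _).trans ?_
    calc S.encard + Sᶜ.encard ≤ 2 + 2 := add_le_add h1 h2
      _ = 4 := by norm_num
  have h6 : Fintype.card (B ⊕ W) ≤ 4 := by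
    rw [Set.encard_univ, ENat.card_eq_coe_fintype_card] at h5
    exact_mod_cast h5
  have h7 : Nonempty B := by
    obtain ⟨x, _⟩ := hS
    rcases x with b | w
    · exact ⟨b⟩
    · exact ⟨(X.e 0).symm w⟩
  have h8 := card_ge X hs
  have h9 : Fintype.card W = Fintype.card B := (Fintype.card_congr (X.e 0)).symm
  rw [Fintype.card_sum, h9] at h6
  omega

/-- **Block 8b**, with finite sets of black and of white vertices. -/
theorem three_le_cut_finset [Fintype B] [Fintype W] [DecidableEq B] [DecidableEq W]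
    (X : Web B W) (h3 : ThreeConnected X.graph)
    (hs : ∀ b (i j : Fin 3), i ≠ j → X.e i b ≠ X.e j b) (S : Finset B) (T : Finset W)
    (h : ¬ (S = ∅ ∧ T = ∅)) (h' : ¬ (S = Finset.univ ∧ T = Finset.univ)) :
    3 ≤ (Finset.univ.filter fun p : Fin 3 × B => ¬ (p.2 ∈ S ↔ X.e p.1 p.2 ∈ T)).card := by
  classical
  let Z : Set (B ⊕ W) := {x | Sum.elim (fun b => b ∈ S) (fun w => w ∈ T) x}
  have h1 := three_le_cut X h3 hs Z ?_ ?_
  · rw [← Set.ncard_coe_finset]
    refine h1.trans (le_of_eq ?_)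
    congr 1
    ext p
    simp [cutSet, Z]
  · by_contra hne
    rw [Set.not_nonempty_iff_eq_empty] at hne
    refine h ⟨?_, ?_⟩
    · refine Finset.eq_empty_of_forall_notMem fun b hb => ?_
      have : (Sum.inl b : B ⊕ W) ∈ Z := hb
      rw [hne] at this
      exact this
    · refine Finset.eq_empty_of_forall_notMem fun w hw => ?_
      have : (Sum.inr w : B ⊕ W) ∈ Z := hw
      rw [hne] at this
      exact this
  · by_contra hne
    rw [Set.not_nonempty_iff_eq_empty] at hne
    refine h' ⟨?_, ?_⟩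
    · refine Finset.eq_univ_iff_forall.2 fun b => ?_
      by_contra hb
      have : (Sum.inl b : B ⊕ W) ∈ Zᶜ := hb
      rw [hne] at this
      exact this
    · refine Finset.eq_univ_iff_forall.2 fun w => ?_
      by_contra hw
      have : (Sum.inr w : B ⊕ W) ∈ Zᶜ := hw
      rw [hne] at this
      exact this

/-- Blocks 8b and 8c for a graph isomorphic to the graph of the web. -/
theorem simple_of_iso {V : Type*} {G : SimpleGraph V} (hcub : ∀ v, (G.neighborSet v).ncard = 3)
    (X : Web B W) (φ : X.graph ≃g G) (b : B) (i j : Fin 3) (hij : i ≠ j) :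
    X.e i b ≠ X.e j b :=
  web_simple X (cubic_iso φ hcub) b hij

theorem cut_of_iso [Fintype B] [Fintype W] {V : Type*} {G : SimpleGraph V}
    (hcub : ∀ v, (G.neighborSet v).ncard = 3) (h3 : ThreeConnected G)
    (X : Web B W) (φ : X.graph ≃g G) (S : Set (B ⊕ W))
    (hS : S.Nonempty) (hS' : Sᶜ.Nonempty) : 3 ≤ (cutSet X S).ncard :=
  three_le_cut X (threeConnected_iso φ h3) (simple_of_iso hcub X φ) S hS hS'

theorem connected_of_three {V : Type*} {G : SimpleGraph V} (h : ThreeConnected G) :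
    G.Connected := by
  have h1 := h.2 ∅ (by simp)
  have hne : Nonempty V := ⟨h1.nonempty.some.1⟩
  refine h1.map (⟨fun v => v.1, fun {a b} hab => hab⟩ :
    G.induce {v | v ∉ (∅ : Finset V)} →g G) ?_
  intro v
  exact ⟨⟨v, by simp⟩, rfl⟩

end Vale.Agent.P039.Bn.H476
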