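import Vale.Agent.P039.Bn.H476.End
import Vale.Agent.P039.Bt.H668.CycS
import Vale.Agent.P039.H331.Step6

/-! The final assembly. -/

namespace Vale.Agent.P039.Bn.H476

open Vale.Agent.P039

theorem avoidAll.{u} (V : Type u) [Fintype V] [DecidableEq V] (G : SimpleGraph V)
    (hG : IsBarnette G) : AvoidAll G :=
  avoid_of_rows Vale.Agent.P039.Bt.H668.cycStmt Vale.Agent.P039.H331.glueStmt V G hG

theorem hamiltonian.{u} {V : Type u} [Fintype V] [DecidableEq V] (G : SimpleGraph V)
    (hG : IsBarnette G) : G.IsHamiltonian :=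
  ham_of_rows Vale.Agent.P039.Bt.H668.cycStmt Vale.Agent.P039.H331.glueStmt G hG

end Vale.Agent.P039.Bn.H476
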