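import Vale.Agent.P039.Defs
import Mathlib.Combinatorics.SimpleGraph.Connectivity.Subgraph
import Mathlib.Combinatorics.SimpleGraph.Hamiltonian

/-! Consequences for cubic graphs all of whose edges are avoided by a Hamiltonian cycle. -/

set_option linter.all false

namespace Vale.Agent.P039.Bn.H476

variable {V : Type*} [Fintype V] [DecidableEq V] {G : SimpleGraph V}

/-- A Hamiltonian cycle, starting at any given vertex, which avoids the edge `e`. -/
theorem avoid_walk [Nontrivial V] {e : Sym2 V} (h : (G.deleteEdges {e}).IsHamiltonian) (v : V) :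
    ∃ p : G.Walk v v, p.IsHamiltonianCycle ∧ e ∉ p.edges := by
  obtain ⟨p, hp⟩ := h.exists_isHamiltonianCycle v
  refine ⟨p.mapLe (SimpleGraph.deleteEdges_le _), hp.map Function.bijective_id, ?_⟩
  rw [SimpleGraph.Walk.edges_mapLe_eq_edges]
  intro he
  have h1 := p.edges_subset_edgeSet he
  rw [SimpleGraph.edgeSet_deleteEdges] at h1
  exact h1.2 rfl

theorem nontrivial_of_cubic (hcub : ∀ v, (G.neighborSet v).ncard = 3) (v : V) : Nontrivial V := by
  have h1 : (G.neighborSet v).Nonempty := by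
    rw [← Set.ncard_pos (Set.toFinite _), hcub v]
    norm_num
  obtain ⟨u, hu⟩ := h1
  exact ⟨v, u, G.ne_of_adj hu⟩

/-- The edges of a Hamiltonian cycle at a vertex: if it avoids one of the three edges it contains
the two others. -/
theorem mem_of_avoid (hcub : ∀ v, (G.neighborSet v).ncard = 3) {v u w x : V} (hu : G.Adj v u)
    (hx : G.Adj v x) (hux : u ≠ x) {a : V} (p : G.Walk a a) (hp : p.IsHamiltonianCycle)
    (he : s(v, x) ∉ p.edges) : s(v, u) ∈ p.edges := by
  have h2 := hp.isCycle.ncard_neighborSet_toSubgraph_eq_two (hp.mem_support v)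
  have h3 : p.toSubgraph.neighborSet v ⊆ G.neighborSet v \ {x} := by
    intro y hy
    refine ⟨p.toSubgraph.neighborSet_subset v hy, ?_⟩
    rintro rfl
    exact he (SimpleGraph.Walk.adj_toSubgraph_iff_mem_edges.1 hy)
  have h4 : (G.neighborSet v \ {x}).ncard = 2 := by
    have hx' : x ∈ G.neighborSet v := hx
    rw [Set.ncard_sdiff_singleton_of_mem hx', hcub v]
  have h5 : p.toSubgraph.neighborSet v = G.neighborSet v \ {x} :=
    Set.eq_of_subset_of_ncard_le h3 (by rw [h4, h2]) (Set.toFinite _)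
  have h6 : u ∈ p.toSubgraph.neighborSet v := by
    rw [h5]; exact ⟨hu, hux⟩
  exact SimpleGraph.Walk.adj_toSubgraph_iff_mem_edges.1 h6

theorem exists_third (hcub : ∀ v, (G.neighborSet v).ncard = 3) {v : V} (u w : V) :
    ∃ x, G.Adj v x ∧ x ≠ u ∧ x ≠ w := by
  have h1 : ({u, w} : Set V).ncard < (G.neighborSet v).ncard := by
    rw [hcub v]
    exact lt_of_le_of_lt (Set.ncard_insert_le _ _) (by rw [Set.ncard_singleton]; norm_num)
  obtain ⟨x, hx, hx'⟩ := Set.exists_mem_notMem_of_ncard_lt_ncard h1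
  simp only [Set.mem_insert_iff, Set.mem_singleton_iff, not_or] at hx'
  exact ⟨x, hx, hx'.1, hx'.2⟩

/-- Every path of length two lies on a Hamiltonian cycle. -/
theorem through (hcub : ∀ v, (G.neighborSet v).ncard = 3)
    (h : ∀ u v, G.Adj u v → (G.deleteEdges {s(u, v)}).IsHamiltonian) {v u w : V}
    (hu : G.Adj v u) (hw : G.Adj v w) :
    ∃ p : G.Walk v v, p.IsHamiltonianCycle ∧ s(v, u) ∈ p.edges ∧ s(v, w) ∈ p.edges := by
  have := nontrivial_of_cubic hcub v
  obtain ⟨x, hx, hxu, hxw⟩ := exists_third hcub (v := v) u w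
  obtain ⟨p, hp, he⟩ := avoid_walk (h v x hx) v
  exact ⟨p, hp, mem_of_avoid (w := w) hcub hu hx hxu.symm p hp he,
    mem_of_avoid (w := w) hcub hw hx hxw.symm p hp he⟩

/-- The Hamiltonian cycles of `G`, as sets of edges. -/
def hamCycles (G : SimpleGraph V) : Set (Set (Sym2 V)) :=
  {E | ∃ (v : V) (p : G.Walk v v), p.IsHamiltonianCycle ∧ E = {e | e ∈ p.edges}}

/-- There are at least three Hamiltonian cycles. -/
theorem three_cycles (hcub : ∀ v, (G.neighborSet v).ncard = 3)
    (h : ∀ u v, G.Adj u v → (G.deleteEdges {s(u, v)}).IsHamiltonian) [Nonempty V] :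
    3 ≤ (hamCycles G).ncard := by
  obtain ⟨v⟩ := ‹Nonempty V›
  have := nontrivial_of_cubic hcub v
  have hcyc : ∀ x, G.Adj v x → ∃ E ∈ hamCycles G, s(v, x) ∉ E ∧
      ∀ u, G.Adj v u → u ≠ x → s(v, u) ∈ E := by
    intro x hx
    obtain ⟨p, hp, he⟩ := avoid_walk (h v x hx) v
    exact ⟨{e | e ∈ p.edges}, ⟨v, p, hp, rfl⟩, he, fun u hu hux =>
      mem_of_avoid (w := u) hcub hu hx hux p hp he⟩
  choose! E hE hE1 hE2 using hcyc
  have hinj : Set.InjOn E (G.neighborSet v) := by
    intro x hx y hy hxy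
    by_contra hne
    exact hE1 x hx (hxy ▸ hE2 y hy x hx hne)
  have h1 : (E '' G.neighborSet v).ncard = 3 := by
    rw [hinj.ncard_image, hcub v]
  rw [← h1]
  refine Set.ncard_le_ncard ?_ (Set.toFinite _)
  rintro _ ⟨x, hx, rfl⟩
  exact hE x hx

end Vale.Agent.P039.Bn.H476
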